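import Mathlib

/-!
# P110: products of Littlewood polynomials
-/

namespace Vale.Agent.P110

open Finset ComplexConjugate

/-- the polynomial `∑_{k<n} a k z^k` with real coefficients -/
noncomputable def L (n : ℕ) (a : ℕ → ℝ) (z : ℂ) : ℂ := ∑ k ∈ range n, (a k : ℂ) * z ^ k

theorem orth (M : ℕ) (ζ : ℂ) (hζ : IsPrimitiveRoot ζ M) (_ : 0 < M) (a : ℤ) :
    ∑ t ∈ range M, (ζ ^ a) ^ t = if (M : ℤ) ∣ a then (M : ℂ) else 0 := by
  split_ifs with h
  · have h1 : ζ ^ a = 1 := (hζ.zpow_eq_one_iff_dvd a).mpr h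
    simp [h1]
  · have h1 : ζ ^ a ≠ 1 := fun h2 => h ((hζ.zpow_eq_one_iff_dvd a).mp h2)
    have h2 : (ζ ^ a) ^ M = 1 := by
      rw [← zpow_natCast, ← zpow_mul, mul_comm, zpow_mul, zpow_natCast, hζ.pow_eq_one, one_zpow]
    have h3 := mul_geom_sum (ζ ^ a) M
    rw [h2, sub_self] at h3
    exact (mul_eq_zero.mp h3).resolve_left (sub_ne_zero.mpr h1)

theorem normSq_L (n : ℕ) (a : ℕ → ℝ) (ζ z : ℂ) (hζ : ‖ζ‖ = 1) (t : ℕ) :
    ((‖L n a (ζ ^ t * z)‖ ^ 2 : ℝ) : ℂ) = ∑ i ∈ range n, ∑ j ∈ range n,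
      ((a i : ℂ) * a j * (z ^ i * conj z ^ j)) * (ζ ^ ((i : ℤ) - j)) ^ t := by
  have hζ0 : ζ ≠ 0 := by
    intro h; rw [h, norm_zero] at hζ; exact zero_ne_one hζ
  have hconj : conj ζ = ζ⁻¹ := by
    rw [Complex.inv_def, Complex.normSq_eq_norm_sq, hζ]; simp
  rw [Complex.ofReal_pow, ← Complex.mul_conj', L, map_sum, Finset.sum_mul_sum]
  refine Finset.sum_congr rfl fun i _ => Finset.sum_congr rfl fun j _ => ?_
  rw [map_mul, Complex.conj_ofReal, map_pow, map_mul, map_pow, hconj, mul_pow, mul_pow,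
    zpow_sub₀ hζ0, zpow_natCast, zpow_natCast, div_pow]
  have h1 : (ζ ^ t) ^ i = (ζ ^ i) ^ t := by rw [← pow_mul, ← pow_mul, mul_comm]
  have h2 : ((ζ⁻¹) ^ t) ^ j = ((ζ ^ j) ^ t)⁻¹ := by
    rw [inv_pow, inv_pow, ← pow_mul, ← pow_mul, mul_comm]
  rw [h1, h2, div_eq_mul_inv]
  ring

theorem conj_mul_self {z : ℂ} (hz : ‖z‖ = 1) (i : ℕ) : z ^ i * conj z ^ i = 1 := by
  rw [← mul_pow, Complex.mul_conj', hz]; simp

/-- mean value over the `M`-th roots of unity -/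
theorem mean (M n : ℕ) (hn : n ≤ M) (hM : 0 < M) (a : ℕ → ℝ) (ζ z : ℂ)
    (hζ : IsPrimitiveRoot ζ M) (hz : ‖z‖ = 1) :
    ∑ t ∈ range M, ‖L n a (ζ ^ t * z)‖ ^ 2 = M * ∑ i ∈ range n, a i ^ 2 := by
  have hζ1 : ‖ζ‖ = 1 := hζ.norm'_eq_one hM.ne'
  have h1 : ((∑ t ∈ range M, ‖L n a (ζ ^ t * z)‖ ^ 2 : ℝ) : ℂ) =
      ((M * ∑ i ∈ range n, a i ^ 2 : ℝ) : ℂ) := by
    rw [Complex.ofReal_sum, Finset.sum_congr rfl fun t _ => normSq_L n a ζ z hζ1 t,
      Finset.sum_comm]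
    have h2 : ∀ i ∈ range n, ∑ t ∈ range M, ∑ j ∈ range n,
        ((a i : ℂ) * a j * (z ^ i * conj z ^ j)) * (ζ ^ ((i : ℤ) - j)) ^ t = M * (a i : ℂ) ^ 2 := by
      intro i hi
      rw [Finset.sum_comm, Finset.sum_eq_single i]
      · rw [← Finset.mul_sum, orth M ζ hζ hM, sub_self, if_pos (dvd_zero _), conj_mul_self hz]
        ring
      · intro j hj hji
        rw [← Finset.mul_sum, orth M ζ hζ hM, if_neg, mul_zero]
        intro hdvd
        rw [Finset.mem_range] at hi hj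
        have := Int.eq_zero_of_abs_lt_dvd hdvd (by rw [abs_lt]; constructor <;> omega)
        omega
      · intro h; exact absurd hi h
    rw [Finset.sum_congr rfl h2, ← Finset.mul_sum]
    push_cast
    rfl
  exact_mod_cast h1

/-- the squared modulus of a Littlewood polynomial of length `r ≥ 2` deviates by at least `1`
from its mean -/
theorem deviation (r : ℕ) (hr : 2 ≤ r) (s : ℕ → ℝ) (hs : ∀ k < r, s k = 1 ∨ s k = -1)
    (η : ℝ)
    (h : ∀ z : ℂ, ‖z‖ = 1 → |‖L r s z‖ ^ 2 - r| ≤ η) : 1 ≤ η := by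
  have hM : 0 < 2 * r := by omega
  have hζ := Complex.isPrimitiveRoot_exp (2 * r) hM.ne'
  set ζ := Complex.exp (2 * Real.pi * Complex.I / ((2 * r : ℕ) : ℂ)) with hζdef
  have hζ1 : ‖ζ‖ = 1 := hζ.norm'_eq_one hM.ne'
  have hζ0 : ζ ≠ 0 := by
    intro h; rw [h, norm_zero] at hζ1; exact zero_ne_one hζ1
  have h1 : ∑ t ∈ range (2 * r), ((‖L r s (ζ ^ t * 1)‖ ^ 2 - r : ℝ) : ℂ) *
      (ζ ^ (-((r : ℤ) - 1))) ^ t = (2 * r : ℕ) * ((s (r - 1) : ℂ) * s 0) := by
    have h2 : ∀ t ∈ range (2 * r), ((‖L r s (ζ ^ t * 1)‖ ^ 2 - r : ℝ) : ℂ) *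
        (ζ ^ (-((r : ℤ) - 1))) ^ t = (∑ i ∈ range r, ∑ j ∈ range r,
          ((s i : ℂ) * s j) * (ζ ^ ((i : ℤ) - j - (r - 1))) ^ t) -
            r * (ζ ^ (-((r : ℤ) - 1))) ^ t := by
      intro t _
      rw [Complex.ofReal_sub, normSq_L r s ζ 1 hζ1 t, sub_mul, Complex.ofReal_natCast,
        Finset.sum_mul]
      congr 1
      refine Finset.sum_congr rfl fun i _ => ?_
      rw [Finset.sum_mul]
      refine Finset.sum_congr rfl fun j _ => ?_
      rw [map_one, one_pow, one_pow, mul_one, mul_one, mul_assoc, ← mul_pow, ← zpow_add₀ hζ0]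
      congr 3
    rw [Finset.sum_congr rfl h2, Finset.sum_sub_distrib, ← Finset.mul_sum,
      orth _ ζ hζ hM, if_neg (by
        intro hd
        have := Int.eq_zero_of_abs_lt_dvd hd (by rw [abs_lt]; constructor <;> push_cast <;> omega)
        omega), mul_zero, sub_zero, Finset.sum_comm]
    rw [Finset.sum_eq_single (r - 1)]
    · rw [Finset.sum_comm, Finset.sum_eq_single 0]
      · rw [← Finset.mul_sum, orth _ ζ hζ hM, if_pos]
        · ring
        · have : (((r - 1 : ℕ) : ℤ) - ((0 : ℕ) : ℤ) - (r - 1)) = 0 := by omega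
          rw [this]; exact dvd_zero _
      · intro j hj hj0
        rw [← Finset.mul_sum, orth _ ζ hζ hM, if_neg, mul_zero]
        intro hd
        rw [Finset.mem_range] at hj
        have := Int.eq_zero_of_abs_lt_dvd hd (by rw [abs_lt]; constructor <;> push_cast <;> omega)
        omega
      · intro hn; exact absurd (Finset.mem_range.mpr (by omega)) hn
    · intro i hi hir
      rw [Finset.sum_comm]
      refine Finset.sum_eq_zero fun j hj => ?_
      rw [← Finset.mul_sum, orth _ ζ hζ hM, if_neg, mul_zero]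
      intro hd
      rw [Finset.mem_range] at hi hj
      have := Int.eq_zero_of_abs_lt_dvd hd (by rw [abs_lt]; constructor <;> push_cast <;> omega)
      omega
    · intro hn; exact absurd (Finset.mem_range.mpr (by omega)) hn
  have h3 : ‖∑ t ∈ range (2 * r), ((‖L r s (ζ ^ t * 1)‖ ^ 2 - r : ℝ) : ℂ) *
      (ζ ^ (-((r : ℤ) - 1))) ^ t‖ ≤ (2 * r : ℕ) * η := by
    refine (norm_sum_le _ _).trans ?_
    calc _ ≤ ∑ _t ∈ range (2 * r), η := by
          refine Finset.sum_le_sum fun t _ => ?_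
          rw [norm_mul, norm_pow, norm_zpow, hζ1, one_zpow, one_pow, mul_one, Complex.norm_real,
            Real.norm_eq_abs]
          apply h
          rw [mul_one, norm_pow, hζ1, one_pow]
      _ = _ := by rw [Finset.sum_const, Finset.card_range, nsmul_eq_mul]
  rw [h1] at h3
  have h4 : ‖((s (r - 1) : ℂ) * s 0)‖ = 1 := by
    rw [norm_mul, Complex.norm_real, Complex.norm_real]
    rcases hs (r - 1) (by omega) with h | h <;> rcases hs 0 (by omega) with h' | h' <;> rw [h, h'] <;> norm_num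
  rw [norm_mul, h4, mul_one, Complex.norm_natCast] at h3
  have h5 : (0 : ℝ) < ((2 * r : ℕ) : ℝ) := by exact_mod_cast hM
  have h6 : ((2 * r : ℕ) : ℝ) * 1 ≤ ((2 * r : ℕ) : ℝ) * η := by linarith
  exact le_of_mul_le_mul_left h6 h5

/-! ### Products -/

theorem le_sq {x y : ℝ} (h : x ^ 2 ≤ y ^ 2) (hy : 0 ≤ y) : x ≤ y := by
  nlinarith [abs_le_of_sq_le_sq' h hy |>.2]

/-- coefficients `± 1` -/
def Littlewood (n : ℕ) (a : ℕ → ℝ) : Prop := ∀ k < n, a k = 1 ∨ a k = -1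

/-- `(1 - c) √n ≤ |P(z)| ≤ (1 + c) √n` on the unit circle -/
def Flat (n : ℕ) (a : ℕ → ℝ) (c : ℝ) : Prop :=
  ∀ z : ℂ, ‖z‖ = 1 → (1 - c) * Real.sqrt n ≤ ‖L n a z‖ ∧ ‖L n a z‖ ≤ (1 + c) * Real.sqrt n

theorem L_mul (m r : ℕ) (hm : 0 < m) (q s a : ℕ → ℝ)
    (h : ∀ i < m, ∀ j < r, a (i + m * j) = q i * s j) (z : ℂ) :
    L (m * r) a z = L m q z * L r s (z ^ m) := by
  have key : ∀ r' ≤ r, ∑ k ∈ range (m * r'), (a k : ℂ) * z ^ k =
      (∑ i ∈ range m, (q i : ℂ) * z ^ i) * ∑ j ∈ range r', (s j : ℂ) * (z ^ m) ^ j := by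
    intro r' hr'
    induction r' with
    | zero => simp
    | succ r' ih =>
      have hstep : ∑ i ∈ range m, (a (m * r' + i) : ℂ) * z ^ (m * r' + i) =
          (∑ i ∈ range m, (q i : ℂ) * z ^ i) * ((s r' : ℂ) * (z ^ m) ^ r') := by
        rw [Finset.sum_mul]
        refine Finset.sum_congr rfl fun i hi => ?_
        rw [Finset.mem_range] at hi
        rw [add_comm (m * r') i, h i hi r' (by omega)]
        push_cast
        rw [pow_add, pow_mul]
        ring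
      rw [Nat.mul_succ, Finset.sum_range_add (fun k => (a k : ℂ) * z ^ k), ih (by omega),
        Finset.sum_range_succ, mul_add, hstep]
  exact key r le_rfl

theorem sum_sq (n : ℕ) (a : ℕ → ℝ) (ha : Littlewood n a) : ∑ i ∈ range n, a i ^ 2 = n := by
  have h1 : ∀ i ∈ range n, a i ^ 2 = 1 := by
    intro i hi
    rcases ha i (Finset.mem_range.mp hi) with h | h <;> rw [h] <;> norm_num
  rw [Finset.sum_congr rfl h1]; simp

theorem factor_right (m r : ℕ) (hm : 0 < m) (q s a : ℕ → ℝ) (hq : Littlewood m q)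
    (h : ∀ i < m, ∀ j < r, a (i + m * j) = q i * s j) (c : ℝ) (hc0 : 0 ≤ c) (hc1 : c < 1)
    (hflat : Flat (m * r) a c) : Flat r s c := by
  intro w hw
  obtain ⟨z, hz⟩ := IsAlgClosed.exists_pow_nat_eq w hm
  have hz1 : ‖z‖ = 1 := by
    have h1 : ‖z‖ ^ m = 1 := by rw [← norm_pow, hz, hw]
    exact (pow_eq_one_iff_of_nonneg (norm_nonneg z) hm.ne').mp h1
  have hζ := Complex.isPrimitiveRoot_exp m hm.ne'
  set ζ := Complex.exp (2 * Real.pi * Complex.I / (m : ℂ)) with hζdef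
  have hζ1 : ‖ζ‖ = 1 := hζ.norm'_eq_one hm.ne'
  have hnode : ∀ t, ‖ζ ^ t * z‖ = 1 := by
    intro t; rw [norm_mul, norm_pow, hζ1, one_pow, one_mul, hz1]
  have hP : ∀ t, ‖L (m * r) a (ζ ^ t * z)‖ = ‖L m q (ζ ^ t * z)‖ * ‖L r s w‖ := by
    intro t
    rw [L_mul m r hm q s a h, norm_mul]
    congr 3
    rw [mul_pow, ← pow_mul, mul_comm t m, pow_mul, hζ.pow_eq_one, one_pow, one_mul, hz]
  have hmean := mean m m le_rfl hm q ζ z hζ hz1
  rw [sum_sq m q hq] at hmean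
  have hsum : ∑ t ∈ range m, ‖L (m * r) a (ζ ^ t * z)‖ ^ 2 = m * m * ‖L r s w‖ ^ 2 := by
    rw [← hmean, Finset.sum_mul]
    refine Finset.sum_congr rfl fun t _ => ?_
    rw [hP, mul_pow]
  have hmR : (0 : ℝ) < m := by exact_mod_cast hm
  have hsqrt : Real.sqrt ((m * r : ℕ) : ℝ) ^ 2 = m * r := by
    rw [Real.sq_sqrt (by positivity)]; push_cast; ring
  have hlow : (m : ℝ) * ((1 - c) ^ 2 * (m * r)) ≤ m * m * ‖L r s w‖ ^ 2 := by
    rw [← hsum]
    calc (m : ℝ) * ((1 - c) ^ 2 * (m * r)) = ∑ _t ∈ range m, (1 - c) ^ 2 * (m * r) := by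
          rw [Finset.sum_const, Finset.card_range, nsmul_eq_mul]
      _ ≤ _ := by
          refine Finset.sum_le_sum fun t _ => ?_
          rw [← hsqrt, ← mul_pow]
          apply pow_le_pow_left₀ _ (hflat _ (hnode t)).1
          apply mul_nonneg (by linarith) (Real.sqrt_nonneg _)
  have hup : m * m * ‖L r s w‖ ^ 2 ≤ (m : ℝ) * ((1 + c) ^ 2 * (m * r)) := by
    rw [← hsum]
    calc _ ≤ ∑ _t ∈ range m, (1 + c) ^ 2 * (m * r : ℝ) := by
          refine Finset.sum_le_sum fun t _ => ?_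
          rw [← hsqrt, ← mul_pow]
          exact pow_le_pow_left₀ (norm_nonneg _) (hflat _ (hnode t)).2 2
      _ = _ := by rw [Finset.sum_const, Finset.card_range, nsmul_eq_mul]
  have hrs : Real.sqrt (r : ℝ) ^ 2 = r := Real.sq_sqrt (by positivity)
  have hmm : (0 : ℝ) < m * m := by positivity
  constructor
  · refine le_sq ?_ (norm_nonneg _)
    rw [mul_pow, hrs]
    have : m * m * ((1 - c) ^ 2 * r) ≤ m * m * ‖L r s w‖ ^ 2 := by
      calc m * m * ((1 - c) ^ 2 * r) = (m : ℝ) * ((1 - c) ^ 2 * (m * r)) := by ring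
        _ ≤ _ := hlow
    exact le_of_mul_le_mul_left this hmm
  · refine le_sq ?_ (mul_nonneg (by linarith) (Real.sqrt_nonneg _))
    rw [mul_pow, hrs]
    have : m * m * ‖L r s w‖ ^ 2 ≤ m * m * ((1 + c) ^ 2 * r) := by
      calc _ ≤ _ := hup
        _ = m * m * ((1 + c) ^ 2 * r) := by ring
    exact le_of_mul_le_mul_left this hmm

theorem factor_left (m r : ℕ) (hm : 0 < m) (hr : 0 < r) (q s a : ℕ → ℝ) (hq : Littlewood m q)
    (h : ∀ i < m, ∀ j < r, a (i + m * j) = q i * s j) (c : ℝ) (hc0 : 0 ≤ c) (hc1 : c < 1)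
    (hflat : Flat (m * r) a c) (z : ℂ) (hz : ‖z‖ = 1) :
    (1 - c) / (1 + c) * Real.sqrt m ≤ ‖L m q z‖ ∧
      ‖L m q z‖ ≤ (1 + c) / (1 - c) * Real.sqrt m := by
  have hR := factor_right m r hm q s a hq h c hc0 hc1 hflat (z ^ m)
    (by rw [norm_pow, hz, one_pow])
  have hP := hflat z hz
  rw [L_mul m r hm q s a h, norm_mul] at hP
  have hs : Real.sqrt ((m * r : ℕ) : ℝ) = Real.sqrt m * Real.sqrt r := by
    push_cast
    rw [Real.sqrt_mul (by positivity)]
  rw [hs] at hP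
  have hsm : 0 < Real.sqrt m := Real.sqrt_pos.mpr (by exact_mod_cast hm)
  have hsr : 0 < Real.sqrt r := Real.sqrt_pos.mpr (by exact_mod_cast hr)
  set x := ‖L m q z‖
  set y := ‖L r s (z ^ m)‖
  have hx : 0 ≤ x := norm_nonneg _
  have h1c : 0 < 1 - c := by linarith
  constructor
  · rw [div_mul_eq_mul_div, div_le_iff₀ (by linarith)]
    have h1 : (1 - c) * (Real.sqrt m * Real.sqrt r) ≤ x * ((1 + c) * Real.sqrt r) :=
      hP.1.trans (mul_le_mul_of_nonneg_left hR.2 hx)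
    have h2 : ((1 - c) * Real.sqrt m) * Real.sqrt r ≤ (x * (1 + c)) * Real.sqrt r := by
      linarith
    exact le_of_mul_le_mul_right h2 hsr
  · rw [div_mul_eq_mul_div, le_div_iff₀ h1c]
    have h1 : x * ((1 - c) * Real.sqrt r) ≤ (1 + c) * (Real.sqrt m * Real.sqrt r) :=
      (mul_le_mul_of_nonneg_left hR.1 hx).trans hP.2
    have h2 : (x * (1 - c)) * Real.sqrt r ≤ ((1 + c) * Real.sqrt m) * Real.sqrt r := by
      linarith
    exact le_of_mul_le_mul_right h2 hsr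

/-- a Littlewood polynomial of length `n ≥ 2` whose modulus lies between `x √n` and `y √n` -/
theorem spread (n : ℕ) (hn : 2 ≤ n) (s : ℕ → ℝ) (hs : Littlewood n s) (x y : ℝ) (hx : 0 ≤ x)
    (hxy : 2 ≤ x ^ 2 + y ^ 2)
    (h : ∀ z : ℂ, ‖z‖ = 1 → x * Real.sqrt n ≤ ‖L n s z‖ ∧ ‖L n s z‖ ≤ y * Real.sqrt n) :
    1 ≤ n * (y ^ 2 - 1) := by
  refine deviation n hn s hs _ fun z hz => ?_
  obtain ⟨h1, h2⟩ := h z hz
  have hnn : Real.sqrt (n : ℝ) ^ 2 = n := Real.sq_sqrt (by positivity)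
  have h3 : x ^ 2 * n ≤ ‖L n s z‖ ^ 2 := by
    rw [← hnn, ← mul_pow]
    exact pow_le_pow_left₀ (by positivity) h1 2
  have h4 : ‖L n s z‖ ^ 2 ≤ y ^ 2 * n := by
    have := pow_le_pow_left₀ (norm_nonneg _) h2 2
    rw [mul_pow, hnn] at this
    exact this
  have hn0 : (0 : ℝ) ≤ n := by positivity
  rw [abs_le]
  constructor
  · nlinarith
  · nlinarith

theorem product (m r : ℕ) (hm : 2 ≤ m) (hr : 2 ≤ r) (q s a : ℕ → ℝ) (hq : Littlewood m q)
    (hs : Littlewood r s)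
    (h : ∀ i < m, ∀ j < r, a (i + m * j) = q i * s j) (c : ℝ) (hc0 : 0 ≤ c) (hc1 : c < 1)
    (hflat : Flat (m * r) a c) :
    Flat r s c ∧ Flat m q (2 * c / (1 - c)) ∧ 1 ≤ 3 * c * r ∧ 1 ≤ 4 * c / (1 - c) ^ 2 * m := by
  have hR := factor_right m r (by omega) q s a hq h c hc0 hc1 hflat
  have hQ := factor_left m r (by omega) (by omega) q s a hq h c hc0 hc1 hflat
  have h1c : 0 < 1 - c := by linarith
  refine ⟨hR, ?_, ?_, ?_⟩
  · intro z hz
    obtain ⟨h1, h2⟩ := hQ z hz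
    have hsm : 0 ≤ Real.sqrt (m : ℝ) := Real.sqrt_nonneg _
    constructor
    · refine le_trans (mul_le_mul_of_nonneg_right ?_ hsm) h1
      rw [div_eq_mul_inv (1 - c), le_mul_inv_iff₀ (by linarith)]
      have : (1 - 2 * c / (1 - c)) * (1 + c) = (1 - c) - 4 * c ^ 2 / (1 - c) -
          (0 : ℝ) - 0 + 0 + (1 - 2 * c / (1 - c)) * (1 + c) - (1 - c) + 4 * c ^ 2 / (1 - c) := by
        ring
      have h3 : 2 * c / (1 - c) ≥ 2 * c := by
        rw [ge_iff_le, le_div_iff₀ h1c]; nlinarith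
      nlinarith
    · refine h2.trans (mul_le_mul_of_nonneg_right ?_ hsm)
      rw [div_le_iff₀ h1c, add_mul, div_mul_cancel₀ _ h1c.ne']
      linarith
  · have h3 := spread r hr s hs (1 - c) (1 + c) (by linarith) (by nlinarith) hR
    have hr0 : (0 : ℝ) ≤ r := by positivity
    nlinarith [mul_nonneg hr0 hc0, mul_nonneg (mul_nonneg hr0 hc0) h1c.le]
  · have h3 := spread m hm q hq ((1 - c) / (1 + c)) ((1 + c) / (1 - c)) (by positivity) (by
      have h4 : (1 - c) / (1 + c) * ((1 + c) / (1 - c)) = 1 := by field_simp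
      nlinarith [sq_nonneg ((1 - c) / (1 + c) - (1 + c) / (1 - c))]) hQ
    have h5 : ((1 + c) / (1 - c)) ^ 2 - 1 = 4 * c / (1 - c) ^ 2 := by
      field_simp
      ring
    rw [h5] at h3
    linarith

theorem flat_mono {n : ℕ} {a : ℕ → ℝ} {c d : ℝ} (hcd : c ≤ d) (h : Flat n a c) : Flat n a d := by
  intro z hz
  obtain ⟨h1, h2⟩ := h z hz
  have hs : 0 ≤ Real.sqrt (n : ℝ) := Real.sqrt_nonneg _
  exact ⟨(mul_le_mul_of_nonneg_right (by linarith) hs).trans h1,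
    h2.trans (mul_le_mul_of_nonneg_right (by linarith) hs)⟩

open Filter in
/-- ultraflat sequences of Littlewood polynomials -/
def Ultraflat (N : ℕ → ℕ) (a : ℕ → ℕ → ℝ) : Prop :=
  Tendsto N atTop atTop ∧ (∀ n, Littlewood (N n) (a n)) ∧
    ∀ c : ℝ, 0 < c → ∀ᶠ n in atTop, Flat (N n) (a n) c

open Filter in
theorem ultraflat_factors (m r : ℕ → ℕ) (hm : ∀ n, 2 ≤ m n) (hr : ∀ n, 2 ≤ r n)
    (q s a : ℕ → ℕ → ℝ) (hq : ∀ n, Littlewood (m n) (q n)) (hs : ∀ n, Littlewood (r n) (s n))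
    (h : ∀ n, ∀ i < m n, ∀ j < r n, a n (i + m n * j) = q n i * s n j)
    (hu : Ultraflat (fun n => m n * r n) a) : Ultraflat m q ∧ Ultraflat r s := by
  obtain ⟨-, -, hflat⟩ := hu
  have key : ∀ c : ℝ, 0 < c → c ≤ 1 / 2 → ∀ᶠ n in atTop, Flat (r n) (s n) c ∧
      Flat (m n) (q n) (2 * c / (1 - c)) ∧ 1 ≤ 3 * c * r n ∧ 1 ≤ 16 * c * m n := by
    intro c hc hc2
    filter_upwards [hflat c hc] with n hn
    obtain ⟨h1, h2, h3, h4⟩ := product (m n) (r n) (hm n) (hr n) (q n) (s n) (a n) (hq n) (hs n)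
      (h n) c hc.le (by linarith) hn
    refine ⟨h1, h2, h3, h4.trans ?_⟩
    apply mul_le_mul_of_nonneg_right _ (by positivity)
    have h5 : 1 / 4 ≤ (1 - c) ^ 2 := by nlinarith
    rw [div_le_iff₀ (by linarith)]
    have h6 : 16 * c * (1 / 4) ≤ 16 * c * (1 - c) ^ 2 :=
      mul_le_mul_of_nonneg_left h5 (by positivity)
    linarith
  refine ⟨⟨?_, hq, ?_⟩, ⟨?_, hs, ?_⟩⟩
  · rw [tendsto_atTop]
    intro K
    have hK : (0 : ℝ) < 1 / (16 * ((K : ℝ) + 1)) := by positivity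
    have hK2 : 1 / (16 * ((K : ℝ) + 1)) ≤ 1 / 2 := by
      apply div_le_div_of_nonneg_left (by norm_num) (by norm_num)
      have : (0 : ℝ) ≤ K := by positivity
      linarith
    filter_upwards [key _ hK hK2] with n hn
    have h1 := hn.2.2.2
    have h2 : 16 * (1 / (16 * ((K : ℝ) + 1))) * m n = m n / ((K : ℝ) + 1) := by
      field_simp
    rw [h2, le_div_iff₀ (by positivity)] at h1
    have h3 : (K : ℝ) ≤ m n := by linarith
    exact_mod_cast h3
  · intro c hc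
    have hc' : 0 < min c 1 / 4 := by
      have := lt_min hc one_pos
      linarith
    have hc1 : min c 1 ≤ 1 := min_le_right _ _
    have hc2 : min c 1 ≤ c := min_le_left _ _
    filter_upwards [key (min c 1 / 4) hc' (by linarith)] with n hn
    refine flat_mono ?_ hn.2.1
    rw [div_le_iff₀ (by linarith)]
    nlinarith
  · rw [tendsto_atTop]
    intro K
    have hK : (0 : ℝ) < 1 / (16 * ((K : ℝ) + 1)) := by positivity
    have hK2 : 1 / (16 * ((K : ℝ) + 1)) ≤ 1 / 2 := by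
      apply div_le_div_of_nonneg_left (by norm_num) (by norm_num)
      have : (0 : ℝ) ≤ K := by positivity
      linarith
    filter_upwards [key _ hK hK2] with n hn
    have h1 := hn.2.2.1
    have h2 : 3 * (1 / (16 * ((K : ℝ) + 1))) * r n = (3 / 16 * r n) / ((K : ℝ) + 1) := by
      field_simp
    rw [h2, le_div_iff₀ (by positivity)] at h1
    have h4 : (0 : ℝ) ≤ r n := by positivity
    have h3 : (K : ℝ) ≤ r n := by linarith
    exact_mod_cast h3
  · intro c hc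
    have hc' : 0 < min c (1 / 2) := lt_min hc (by norm_num)
    filter_upwards [key (min c (1 / 2)) hc' (min_le_right _ _)] with n hn
    exact flat_mono (min_le_left _ _) hn.1

end Vale.Agent.P110
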